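import Vale.Agent.P032.S5.H724.TabC
import Vale.Agent.P032.Words.H151.Beta

/-!
# P032: closed words of columns, the simultaneous changes of a beta pair
-/

namespace Vale.Agent.P032.S5.H724.Tab

open Vale.Agent.P032.Words.Trie (zl vl nb op Lv FitW multi)

/-- joint letter of two masks -/
def jm (x y : ℕ) : ℕ :=
  bif Nat.beq x 16 then (bif Nat.beq y 8 then 0 else bif Nat.beq y 32 then 1 else 2) else
  bif Nat.beq x 32 then (bif Nat.beq y 8 then 3 else bif Nat.beq y 5 then 4 else 5) else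
  bif Nat.beq x 3 then (bif Nat.beq y 8 then 6 else 7) else
  (bif Nat.beq y 32 then 8 else 9)

/-- the twelve changed columns -/
def l12 : List (Op × Op) :=
[((3,16,19),(8,5,13)), ((3,16,19),(32,5,37)), ((3,32,35),(8,5,13)), ((12,16,28),(32,8,42)),
  ((16,3,19),(5,8,13)), ((16,3,19),(5,32,37)), ((16,12,28),(8,32,42)), ((16,32,52),(8,18,26)),
  ((16,32,52),(32,8,42)), ((32,3,35),(5,8,13)), ((32,16,52),(8,32,42)), ((32,16,52),(18,8,26))]

/-- position in a list -/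
def look (c : Op × Op) : List (Op × Op) → ℕ → ℕ
  | [], n => n
  | x :: l, n => bif beqC c x then n else look c l (Nat.succ n)

/-- the state of a column -/
def st (c : Op × Op) : ℕ := bif chC c then look c l12 10 else jm c.1.1 c.2.1

/-- letters before -/
def bef (i : ℕ) : ℕ := ([0, 1, 2, 3, 4, 5, 6, 7, 8, 9, 6, 7, 6, 8, 2, 2, 0, 0, 1, 4, 3, 5] : List ℕ).getD i 0

/-- letters after -/
def aft (i : ℕ) : ℕ := ([0, 1, 2, 3, 4, 5, 6, 7, 8, 9, 2, 2, 4, 0, 6, 7, 8, 5, 3, 6, 1, 0] : List ℕ).getD i 0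

/-- possible right neighbours of a state -/
def adj (i : ℕ) : List ℕ := ([[4, 5, 7, 8, 9],
  [3, 4, 5, 6, 9, 12, 19],
  [3, 5, 6, 7, 8, 9],
  [1, 2, 7, 8, 9, 11, 15],
  [0, 1, 6, 7, 8, 9, 13, 16],
  [0, 1, 2, 6, 7, 8, 10, 11, 14, 15],
  [1, 2, 4, 5, 8, 9],
  [0, 2, 3, 4, 5, 9, 17, 21],
  [0, 2, 3, 4, 5, 6, 10, 12, 14, 19],
  [0, 1, 2, 3, 4, 6, 7, 10, 11, 12, 14, 15, 19],
  [5, 8, 9, 18],
  [3, 5, 9, 16, 17],
  [1, 8, 9, 13, 21],
  [4, 12, 15],
  [5, 8, 9, 20],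
  [3, 5, 9, 13, 21],
  [4, 11, 19],
  [7, 11, 19],
  [10],
  [1, 8, 9, 16, 17],
  [14],
  [7, 12, 15]] : List (List ℕ)).getD i []

/-- neighbouring states -/
def chk5 : Bool := v20.all fun p => mem (st p.2) (adj (st p.1)) &&
  gs.all fun b => (!(nx p.1 p.2 b) || mem (st b) (adj (st p.2))) &&
    (!(nx p.2 p.1 b) || mem (st p.1) (adj (st b)))

/-- static neighbours -/
def chk6 : Bool := (List.range 10).all fun i => (List.range 10).all fun j =>
  !(nb i j) || mem j (adj i)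

/-- letters of the changed states -/
def chk7 : Bool := (v20.all fun p =>
  Nat.beq (bef (st p.1)) (jm p.1.1.1 p.1.2.1) && (Nat.beq (aft (st p.1)) (jm p.1.1.2.1 p.1.2.2.1) &&
  (Nat.beq (bef (st p.2)) (jm p.2.1.1 p.2.2.1) && (Nat.beq (aft (st p.2)) (jm p.2.1.2.1 p.2.2.2.1) &&
  (mem (st p.1) [10, 11, 12, 13, 14, 15, 16, 17, 18, 19, 20, 21] &&
   mem (st p.2) [10, 11, 12, 13, 14, 15, 16, 17, 18, 19, 20, 21]))))) &&
  (List.range 10).all fun i => Nat.beq (bef i) i && Nat.beq (aft i) i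

/-- antipodal states -/
def an (i j : ℕ) : Bool :=
  op (bef i) (bef j) && (op (aft i) (aft j) && (op (bef i) (aft j) && op (aft i) (bef j)))

/-- a column `a > a'` needs the column `b > b'` -/
def rq (a a' b b' : ℕ) : Bool :=
  (Nat.beq (zl b) (zl a') && (!(Nat.beq (zl a) (zl a')) && !(Nat.beq (zl b) (zl b')))) ||
  (Nat.beq (vl b) (vl a') && (!(Nat.beq (vl a) (vl a')) && !(Nat.beq (vl b) (vl b'))))

/-- the same for states -/
def rs (i j : ℕ) : Bool := rq (bef i) (aft i) (bef j) (aft j)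

/-- bit `k` of `J` -/
def bt (J k : ℕ) : Bool := Nat.beq (Nat.land (Nat.shiftRight J k) 1) 1

/-- the state is changed -/
def cs (i : ℕ) : Bool := Nat.ble 10 i

/-- no requirement crosses the border of the set `J` of columns -/
def cutJ (a0 a1 a2 a3 a4 a5 J : ℕ) : Bool :=
  ((bt J 0 && cs a0) || (bt J 1 && cs a1) || (bt J 2 && cs a2) || (bt J 3 && cs a3) ||
    (bt J 4 && cs a4) || (bt J 5 && cs a5)) &&
  ((!(bt J 0) && cs a0) || (!(bt J 1) && cs a1) || (!(bt J 2) && cs a2) || (!(bt J 3) && cs a3) ||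
    (!(bt J 4) && cs a4) || (!(bt J 5) && cs a5)) &&
  !(bt J 0 && !(bt J 1) && rs a0 a1) && !(bt J 1 && !(bt J 0) && rs a1 a0) &&
  !(bt J 1 && !(bt J 2) && rs a1 a2) && !(bt J 2 && !(bt J 1) && rs a2 a1) &&
  !(bt J 2 && !(bt J 3) && rs a2 a3) && !(bt J 3 && !(bt J 2) && rs a3 a2) &&
  !(bt J 3 && !(bt J 4) && rs a3 a4) && !(bt J 4 && !(bt J 3) && rs a4 a3) &&
  !(bt J 4 && !(bt J 5) && rs a4 a5) && !(bt J 5 && !(bt J 4) && rs a5 a4) &&
  !(bt J 5 && !(bt J 0) && rs a5 a0) && !(bt J 0 && !(bt J 5) && rs a0 a5)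

/-- the intervals of columns which contain column 0 -/
def Js : List ℕ := [1, 3, 7, 15, 31, 33, 35, 39, 47, 49, 51, 55, 57, 59, 61,
  2, 4, 8, 16, 32, 6, 12, 24, 48, 14, 28, 56, 30, 60, 62]

/-- one letter fits -/
def fit1 : Lv → ℕ → ℕ → Bool
  | .s l, a, b => Nat.beq a b && mem a l
  | .c x y, a, b => Nat.beq a x && Nat.beq b y

/-- a word fits -/
def fitB : List Lv → List ℕ → List ℕ → Bool
  | [], [], [] => true
  | v :: L, a :: w, b :: w' => fit1 v a b && fitB L w w'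
  | _, _, _ => false

/-- the six rotations are in the list -/
def fin (a0 a1 a2 a3 a4 a5 : ℕ) : Bool :=
  (multi.any fun m => fitB m [bef a0, bef a1, bef a2, bef a3, bef a4, bef a5]
    [aft a0, aft a1, aft a2, aft a3, aft a4, aft a5]) &&
  (multi.any fun m => fitB m [bef a5, bef a0, bef a1, bef a2, bef a3, bef a4]
    [aft a5, aft a0, aft a1, aft a2, aft a3, aft a4]) &&
  (multi.any fun m => fitB m [bef a4, bef a5, bef a0, bef a1, bef a2, bef a3]
    [aft a4, aft a5, aft a0, aft a1, aft a2, aft a3]) &&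
  (multi.any fun m => fitB m [bef a3, bef a4, bef a5, bef a0, bef a1, bef a2]
    [aft a3, aft a4, aft a5, aft a0, aft a1, aft a2]) &&
  (multi.any fun m => fitB m [bef a2, bef a3, bef a4, bef a5, bef a0, bef a1]
    [aft a2, aft a3, aft a4, aft a5, aft a0, aft a1]) &&
  (multi.any fun m => fitB m [bef a1, bef a2, bef a3, bef a4, bef a5, bef a0]
    [aft a1, aft a2, aft a3, aft a4, aft a5, aft a0])

/-- no changed column alone -/
def notAl (a b c : ℕ) : Bool := !(cs b) || (cs a || cs c)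

/-- the closed words -/
def chk8 : Bool := ([10, 11, 12, 13, 14, 15, 16, 17, 18, 19, 20, 21] : List ℕ).all fun a0 =>
  (adj a0).all fun a1 => (adj a1).all fun a2 => !(notAl a0 a1 a2) || (adj a2).all fun a3 =>
  !(notAl a1 a2 a3) || (!(an a0 a3) || (adj a3).all fun a4 => !(notAl a2 a3 a4) || (!(an a1 a4) ||
  (adj a4).all fun a5 => !(notAl a3 a4 a5) || (!(an a2 a5) || (!(mem a0 (adj a5)) ||
    (!(notAl a4 a5 a0) || (!(notAl a5 a0 a1) ||
    ((Js.any fun J => cutJ a0 a1 a2 a3 a4 a5 J) || fin a0 a1 a2 a3 a4 a5)))))))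

end Vale.Agent.P032.S5.H724.Tab
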